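import Vale.Agent.P134.LI.Defs
import Vale.Agent.P134.H283.Harnack
import Mathlib.Analysis.SpecialFunctions.Artanh
import Mathlib.Analysis.SpecialFunctions.Trigonometric.DerivHyp

/-! P134, R3: elementary facts on the heteroclinic `g0, g1, g2` and on `phi u = √2 artanh u`. -/

set_option linter.all false

namespace Vale.Agent.P134.H147

open Vale.Agent.P134 Vale.Agent.P134.SM Vale.Agent.P134.LI MeasureTheory Filter Topology

variable {u : R3 → ℝ} {x n : R3} {s t : ℝ}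

lemma r2_pos : (0:ℝ) < Real.sqrt 2 := by positivity
lemma r2_sq : Real.sqrt 2 * Real.sqrt 2 = 2 := Real.mul_self_sqrt (by norm_num)
lemma r2_ne : Real.sqrt 2 ≠ 0 := r2_pos.ne'
lemma r2_one_le : 1 ≤ Real.sqrt 2 := by
  rw [show (1:ℝ) = Real.sqrt 1 by simp]; exact Real.sqrt_le_sqrt (by norm_num)
lemma r2_le_two : Real.sqrt 2 ≤ 2 := by nlinarith [r2_sq, r2_pos]

/-! ### the heteroclinic -/

lemma hasDerivAt_tanh (y : ℝ) : HasDerivAt Real.tanh (1 - Real.tanh y ^ 2) y := by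
  have h0 : Real.cosh y ≠ 0 := (Real.cosh_pos y).ne'
  have h := (Real.hasDerivAt_sinh y).div (Real.hasDerivAt_cosh y) h0
  have e1 : Real.sinh / Real.cosh = Real.tanh := by
    funext z; simp [Real.tanh_eq_sinh_div_cosh]
  rw [e1] at h
  have e2 : (Real.cosh y * Real.cosh y - Real.sinh y * Real.sinh y) / Real.cosh y ^ 2
      = 1 - Real.tanh y ^ 2 := by
    rw [Real.tanh_eq_sinh_div_cosh]; field_simp
  rw [e2] at h
  exact h

lemma hasDerivAt_g0 (s : ℝ) : HasDerivAt g0 (g1 s) s := by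
  have h := (hasDerivAt_tanh (s / Real.sqrt 2)).comp s ((hasDerivAt_id s).div_const (Real.sqrt 2))
  have e : (1 - Real.tanh (s / Real.sqrt 2) ^ 2) * (1 / Real.sqrt 2) = g1 s := by
    unfold g1 g0; ring
  rw [e] at h
  exact h

lemma hasDerivAt_g1 (s : ℝ) : HasDerivAt g1 (g2 s) s := by
  have h := (((hasDerivAt_g0 s).pow 2).const_sub 1).div_const (Real.sqrt 2)
  have e : -((2:ℕ) * g0 s ^ (2 - 1) * g1 s) / Real.sqrt 2 = g2 s := by
    unfold g1 g2
    have := r2_sq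
    have h0 := r2_ne
    field_simp
    norm_num
    nlinarith [this]
  simp only [Nat.cast_ofNat] at e h
  rw [e] at h
  exact h

lemma g0_abs_lt (s : ℝ) : |g0 s| < 1 := Real.abs_tanh_lt_one _
lemma g0_sq_lt (s : ℝ) : g0 s ^ 2 < 1 := Real.tanh_sq_lt_one _
lemma g0_neg (s : ℝ) : g0 (-s) = - g0 s := by unfold g0; rw [neg_div, Real.tanh_neg]
lemma g1_neg (s : ℝ) : g1 (-s) = g1 s := by unfold g1; rw [g0_neg]; ring
lemma g1_pos (s : ℝ) : 0 < g1 s := by
  unfold g1; exact div_pos (by linarith [g0_sq_lt s]) r2_pos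
lemma g0_zero : g0 0 = 0 := by unfold g0; simp

lemma g0_strictMono : StrictMono g0 := by
  apply strictMono_of_deriv_pos
  intro s
  rw [(hasDerivAt_g0 s).deriv]
  exact g1_pos s

lemma g0_mono : Monotone g0 := g0_strictMono.monotone

lemma g0_nonneg (h : 0 ≤ s) : 0 ≤ g0 s := by
  have := g0_mono h; rwa [g0_zero] at this

lemma g2_eq (s : ℝ) : g2 s = - Real.sqrt 2 * g0 s * g1 s := by
  unfold g1 g2; have := r2_ne; field_simp

/-- exact formula `g1 s = (4/√2) / (e^{s/√2} + e^{-s/√2})²`. -/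
lemma g1_eq (s : ℝ) : g1 s
    = 4 / Real.sqrt 2 / (Real.exp (s / Real.sqrt 2) + Real.exp (-(s / Real.sqrt 2))) ^ 2 := by
  unfold g1 g0
  rw [Real.tanh_eq]
  set a := Real.exp (s / Real.sqrt 2) with ha
  set b := Real.exp (-(s / Real.sqrt 2)) with hb
  have ha0 : 0 < a := Real.exp_pos _
  have hb0 : 0 < b := Real.exp_pos _
  have hab : a * b = 1 := by rw [ha, hb, ← Real.exp_add]; simp
  have h0 : a + b ≠ 0 := by positivity
  have e : 1 - ((a - b) / (a + b)) ^ 2 = 4 * (a * b) / (a + b) ^ 2 := by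
    field_simp; ring
  rw [e, hab]
  ring

lemma sqrt2_sq_exp (s : ℝ) : Real.exp (|s| / Real.sqrt 2) ^ 2 = Real.exp (Real.sqrt 2 * |s|) := by
  rw [← Real.exp_nat_mul]
  congr 1
  have := r2_sq
  have h0 := r2_ne
  push_cast
  rw [eq_comm, ← sub_eq_zero]
  have e : Real.sqrt 2 * |s| - 2 * (|s| / Real.sqrt 2)
      = |s| / Real.sqrt 2 * (Real.sqrt 2 * Real.sqrt 2 - 2) := by field_simp
  rw [e, this]; ring

lemma g1_abs (s : ℝ) : g1 |s| = g1 s := by
  rcases abs_choice s with h | h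
  · rw [h]
  · rw [h, g1_neg]

lemma g1_le (s : ℝ) : g1 s ≤ 4 / Real.sqrt 2 * Real.exp (-(Real.sqrt 2 * |s|)) := by
  rw [← g1_abs, g1_eq, Real.exp_neg (Real.sqrt 2 * |s|), ← sqrt2_sq_exp, div_eq_mul_inv _ ((_ : ℝ) ^ 2)]
  apply mul_le_mul_of_nonneg_left _ (by have := r2_pos; positivity)
  apply inv_anti₀ (by positivity)
  apply pow_le_pow_left₀ (Real.exp_pos _).le
  have := Real.exp_pos (-(|s| / Real.sqrt 2))
  linarith

lemma le_g1 (s : ℝ) : 1 / Real.sqrt 2 * Real.exp (-(Real.sqrt 2 * |s|)) ≤ g1 s := by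
  rw [← g1_abs s, g1_eq, Real.exp_neg (Real.sqrt 2 * |s|), ← sqrt2_sq_exp]
  set a := Real.exp (|s| / Real.sqrt 2) with ha
  have ha0 : 0 < a := Real.exp_pos _
  have hb : Real.exp (-(|s| / Real.sqrt 2)) ≤ a := by
    apply Real.exp_le_exp.mpr
    have : 0 ≤ |s| / Real.sqrt 2 := div_nonneg (abs_nonneg _) r2_pos.le
    linarith
  have hb0 := Real.exp_pos (-(|s| / Real.sqrt 2))
  have h1 : (a + Real.exp (-(|s| / Real.sqrt 2))) ^ 2 ≤ 4 * a ^ 2 := by nlinarith
  rw [le_div_iff₀ (by positivity)]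
  have h2 : 1 / Real.sqrt 2 * (a ^ 2)⁻¹ * (a + Real.exp (-(|s| / Real.sqrt 2))) ^ 2
      ≤ 1 / Real.sqrt 2 * (a ^ 2)⁻¹ * (4 * a ^ 2) :=
    mul_le_mul_of_nonneg_left h1 (by have := r2_pos; positivity)
  have h3 : 1 / Real.sqrt 2 * (a ^ 2)⁻¹ * (4 * a ^ 2) = 4 / Real.sqrt 2 := by
    field_simp
  linarith

/-! ### the function `phi` -/

lemma lt_iff (h : ∀ x, |u x| < 1) (x : R3) : u x ∈ Set.Ioo (-1:ℝ) 1 := by
  have := abs_lt.mp (h x); exact ⟨this.1, this.2⟩

lemma phi_eq_artanh (h : ∀ x, |u x| < 1) (x : R3) : phi u x = Real.sqrt 2 * Real.artanh (u x) := by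
  have hx := lt_iff h x
  rw [Real.artanh_eq_half_log ⟨hx.1.le, hx.2.le⟩]
  unfold phi
  rw [Real.log_div (by linarith [hx.1]) (by linarith [hx.2])]
  ring

/-- `g(φ) = u`. -/
lemma g0_phi (h : ∀ x, |u x| < 1) (x : R3) : g0 (phi u x) = u x := by
  unfold g0
  rw [phi_eq_artanh h, mul_div_cancel_left₀ _ r2_ne, Real.tanh_artanh (lt_iff h x)]

/-- `g'(φ) = f`. -/
lemma g1_phi (h : ∀ x, |u x| < 1) (x : R3) : g1 (phi u x) = ff u x := by
  unfold g1 ff; rw [g0_phi h]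

lemma ff_pos (h : ∀ x, |u x| < 1) (x : R3) : 0 < ff u x := by
  rw [← g1_phi h]; exact g1_pos _

lemma ff_le (u : R3 → ℝ) (x : R3) : ff u x ≤ 1 / Real.sqrt 2 := by
  unfold ff
  apply div_le_div_of_nonneg_right _ r2_pos.le
  nlinarith [sq_nonneg (u x)]

lemma ff_eq_psi (u : R3 → ℝ) (x : R3) : ff u x = psi u x / Real.sqrt 2 := rfl

lemma phi_contDiff (hu : Sol u) (h : ∀ x, |u x| < 1) (m : ℕ) : ContDiff ℝ m (phi u) := by
  have hc : ContDiff ℝ m u := SM.Sol.contDiff_nat hu m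
  unfold phi
  apply ContDiff.mul contDiff_const
  apply ContDiff.sub
  · apply ContDiff.log (contDiff_const.add hc)
    intro y; linarith [(lt_iff h y).1]
  · apply ContDiff.log (contDiff_const.sub hc)
    intro y; linarith [(lt_iff h y).2]

lemma phi_diff (hu : Sol u) (h : ∀ x, |u x| < 1) : Differentiable ℝ (phi u) :=
  (phi_contDiff hu h 1).differentiable (by norm_num)

/-- `∂_i u = f ∂_i φ`. -/
lemma pd_u (hu : Sol u) (h : ∀ x, |u x| < 1) (i : Fin 3) (x : R3) :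
    pd i u x = ff u x * pd i (phi u) x := by
  have e : u = fun y => g0 (phi u y) := by funext y; exact (g0_phi h y).symm
  have h1 : pd i (fun y => g0 (phi u y)) x = deriv g0 (phi u x) * pd i (phi u) x :=
    pd_comp (hasDerivAt_g0 _).differentiableAt (phi_diff hu h x)
  rw [← e] at h1
  rw [h1, (hasDerivAt_g0 _).deriv, g1_phi h]

lemma gs_phi (hu : Sol u) (h : ∀ x, |u x| < 1) (x : R3) :
    gs u x = ff u x ^ 2 * gs (phi u) x := by
  unfold gs
  rw [Finset.mul_sum]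
  refine Finset.sum_congr rfl fun i _ => ?_
  rw [pd_u hu h]; ring

/-- `D = f² q`. -/
lemma defi_eq (hu : Sol u) (h : ∀ x, |u x| < 1) (x : R3) : defi u x = ff u x ^ 2 * qq u x := by
  have h1 : defi u x = ff u x ^ 2 - gs u x := by
    unfold defi gs ff psi
    rw [div_pow, Real.sq_sqrt (by norm_num)]
  rw [h1, gs_phi hu h]; unfold qq; ring

lemma qq_nonneg (hu : Sol u) (h : ∀ x, |u x| < 1) (x : R3) : 0 ≤ qq u x := by
  have h1 := hu.defi_nonneg x
  rw [defi_eq hu h] at h1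
  have h2 := ff_pos h x
  by_contra hc
  push Not at hc
  nlinarith [mul_pos h2 h2, mul_neg_of_pos_of_neg (mul_pos h2 h2) hc]

lemma qq_le_one (u : R3 → ℝ) (x : R3) : qq u x ≤ 1 := by
  unfold qq; linarith [gs_nonneg (phi u) x]

lemma gs_phi_le (hu : Sol u) (h : ∀ x, |u x| < 1) (x : R3) : gs (phi u) x ≤ 1 := by
  have := qq_nonneg hu h x; unfold qq at this; linarith

lemma rr_sq (u : R3 → ℝ) (x : R3) : rr u x ^ 2 = gs (phi u) x := by
  unfold rr; exact wn_sq _ _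

lemma rr_nonneg (u : R3 → ℝ) (x : R3) : 0 ≤ rr u x := wn_nonneg _ _

lemma rr_le_one (hu : Sol u) (h : ∀ x, |u x| < 1) (x : R3) : rr u x ≤ 1 := by
  have h1 := gs_phi_le hu h x
  rw [← rr_sq] at h1
  nlinarith [rr_nonneg u x]

lemma qq_eq (u : R3 → ℝ) (x : R3) : qq u x = (1 - rr u x) * (1 + rr u x) := by
  unfold qq; rw [← rr_sq]; ring

lemma nn_sq (h0 : 0 < rr u x) : ∑ i, nn u x i ^ 2 = 1 := by
  unfold nn
  apply sum_nu_sq
  have := rr_sq u x
  rw [← this]; positivity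

lemma nn_sq_le (u : R3 → ℝ) (x : R3) : ∑ i, nn u x i ^ 2 ≤ 1 := by
  rcases (rr_nonneg u x).lt_or_eq with h | h
  · exact (nn_sq h).le
  · unfold nn nu
    have : wn (phi u) x = 0 := by unfold rr at h; exact h.symm
    simp [this]

lemma rr_mul_nn (u : R3 → ℝ) (x : R3) (i : Fin 3) : rr u x * nn u x i = pd i (phi u) x := by
  rcases (rr_nonneg u x).lt_or_eq with h | h
  · unfold nn rr nu at *
    field_simp
  · have h1 := rr_sq u x
    rw [← h] at h1
    have h2 : gs (phi u) x = 0 := by rw [← h1]; norm_num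
    unfold gs at h2
    have h3 := (Finset.sum_eq_zero_iff_of_nonneg (fun i _ => sq_nonneg (pd i (phi u) x))).mp h2 i
      (Finset.mem_univ i)
    have h4 : pd i (phi u) x = 0 := pow_eq_zero_iff (two_ne_zero) |>.mp h3
    rw [h4, ← h, zero_mul]

lemma sum_pd_nn (u : R3 → ℝ) (x : R3) : ∑ i, pd i (phi u) x * nn u x i = rr u x := by
  rcases (rr_nonneg u x).lt_or_eq with h | h
  · have : ∀ i, pd i (phi u) x * nn u x i = rr u x * nn u x i ^ 2 := by
      intro i; rw [← rr_mul_nn]; ring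
    simp_rw [this]
    rw [← Finset.mul_sum, nn_sq h, mul_one]
  · have : ∀ i, pd i (phi u) x * nn u x i = 0 := by
      intro i; rw [← rr_mul_nn, ← h]; ring
    simp_rw [this]
    rw [← h]; simp

end Vale.Agent.P134.H147
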