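import Vale.Agent.P134.H147.RayMain
import Vale.Agent.P134.H919.CDX
import Vale.Agent.P134.H873.LI6
import Vale.Agent.P134.LI.Stm2

/-! P134, R3, block LI-PW: `StPW` from LI6 (helper873), RAY and the geometric bounds. -/

set_option linter.all false

namespace Vale.Agent.P134.H147

open Vale.Agent.P134 Vale.Agent.P134.SM Vale.Agent.P134.LI MeasureTheory
  Filter Topology

namespace PW

/-- the derivative of `zt τ`. -/
noncomputable def dz (τ t : ℝ) : ℝ :=
  deriv th (t - τ + 1) * th (-t - τ + 1) - th (t - τ + 1) * deriv th (-t - τ + 1)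

lemma zt_prod {τ : ℝ} (hτ : 0 ≤ τ) (t : ℝ) : zt τ t = th (t - τ + 1) * th (-t - τ + 1) := by
  rw [H919.zt_eq]
  rcases le_total 0 t with h | h
  · rw [abs_of_nonneg h, th_one (t := -t - τ + 1) (by linarith), mul_one]
  · rw [abs_of_nonpos h, th_one (t := t - τ + 1) (by linarith), one_mul]

lemma th_hasDerivAt (s : ℝ) : HasDerivAt th (deriv th s) s :=
  (th_contDiff.differentiable (by norm_num) s).hasDerivAt

lemma zt_hasDerivAt {τ : ℝ} (hτ : 0 ≤ τ) (t : ℝ) : HasDerivAt (zt τ) (dz τ t) t := by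
  have e : zt τ = fun t => th (t - τ + 1) * th (-t - τ + 1) := funext (zt_prod hτ)
  rw [e]
  have h1 : HasDerivAt (fun t : ℝ => th (t - τ + 1)) (deriv th (t - τ + 1)) t := by
    have := (th_hasDerivAt (t - τ + 1)).comp t (((hasDerivAt_id t).sub_const τ).add_const 1)
    simpa [Function.comp_def] using this
  have h2 : HasDerivAt (fun t : ℝ => th (-t - τ + 1)) (-deriv th (-t - τ + 1)) t := by
    have := (th_hasDerivAt (-t - τ + 1)).comp t (((hasDerivAt_id t).neg.sub_const τ).add_const 1)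
    simpa [Function.comp_def] using this
  refine (h1.mul h2).congr_deriv ?_
  unfold dz; ring

lemma dz_continuous (τ : ℝ) : Continuous (dz τ) := by
  have h1 : Continuous (deriv th) := th_contDiff.continuous_deriv (by norm_num)
  have h2 : Continuous th := th_contDiff.continuous
  unfold dz
  fun_prop

lemma dz_abs_le {C : ℝ} (hC : ∀ t, |deriv th t| ≤ C) (τ t : ℝ) : |dz τ t| ≤ 2 * C := by
  have h0 : 0 ≤ C := (abs_nonneg _).trans (hC 0)
  unfold dz
  refine (abs_sub _ _).trans ?_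
  rw [abs_mul, abs_mul, abs_of_nonneg (th_nonneg _), abs_of_nonneg (th_nonneg _)]
  have h1 := hC (t - τ + 1)
  have h2 := hC (-t - τ + 1)
  have h3 := th_le_one (t - τ + 1)
  have h4 := th_le_one (-t - τ + 1)
  have h5 := th_nonneg (t - τ + 1)
  have h6 := th_nonneg (-t - τ + 1)
  calc _ ≤ C * 1 + 1 * C := by gcongr
    _ = _ := by ring

lemma zt_nonneg (τ t : ℝ) : 0 ≤ zt τ t := by rw [H919.zt_eq]; exact th_nonneg _
lemma zt_le_one (τ t : ℝ) : zt τ t ≤ 1 := by rw [H919.zt_eq]; exact th_le_one _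
lemma zt_one {τ t : ℝ} (h : |t| ≤ τ) : zt τ t = 1 := by
  rw [H919.zt_eq]; exact th_one (by linarith)
lemma zt_zero {τ t : ℝ} (h : τ + 1 ≤ |t|) : zt τ t = 0 := by
  rw [H919.zt_eq]; exact th_zero (by linarith)

lemma dz_zero {τ t : ℝ} (hτ : 0 ≤ τ) (h : τ + 1 < |t|) : dz τ t = 0 := by
  have h1 := zt_hasDerivAt hτ t
  have h2 : zt τ =ᶠ[𝓝 t] fun _ => 0 := by
    have : ∀ᶠ s in 𝓝 t, τ + 1 < |s| := continuous_abs.continuousAt.eventually_const_lt h
    filter_upwards [this] with s hs using zt_zero hs.le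
  have h3 := h1.congr_of_eventuallyEq h2.symm
  exact h3.unique (hasDerivAt_const t 0)

lemma xt_continuous (u : R3 → ℝ) (x : R3) : Continuous (fun t => xt u x t) := by
  simp_rw [xt_eq]; fun_prop

lemma g1_eq' (s : ℝ) : H873.g1 s = LI.g1 s := rfl
lemma g_eq' (s : ℝ) : H873.g s = LI.g0 s := rfl
lemma g2_eq' (s : ℝ) : H873.g2 s = LI.g2 s := by
  rw [g2_eq]; unfold H873.g2; rw [g1_eq', g_eq']; ring

lemma exp_dep {u : R3 → ℝ} (hu : Sol u) (hlt : ∀ x, |u x| < 1) {ε κ : ℝ} (hε : 0 < ε)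
    (hκ : 0 < κ) (x : R3) :
    Real.exp (-(2 * Real.sqrt 2 * dep ε κ u x)) = ε * (qq u x + κ ^ 2) := by
  have hq := qq_nonneg hu hlt x
  have hz : 0 < ε * (qq u x + κ ^ 2) := by positivity
  rw [H919.dep_eq]
  have : -(2 * Real.sqrt 2 * -(Real.log (ε * (qq u x + κ ^ 2)) / (2 * Real.sqrt 2)))
      = Real.log (ε * (qq u x + κ ^ 2)) := by
    have := r2_pos
    field_simp
  simp only [this]
  exact Real.exp_log hz

/-- the final bookkeeping. -/
lemma final_alg {I c0 q qk Λ ε c2 C2 e1 e2 sK : ℝ} (hI : I ≤ sK * (c0 / 2) - c2 * q * (c0 / 2) +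
      C2 * (Λ + e1 + ε) * q + C2 * e2) (hC2 : 0 ≤ C2) (hq : 0 ≤ q) (hqk : q ≤ qk) (hΛ : 0 ≤ Λ)
    (hε : 0 ≤ ε) (h1 : e1 * q ≤ ε * qk) (h2 : e2 = ε * qk) :
    2 * I ≤ c0 * (sK - c2 * q) + 8 * C2 * (Λ + ε) * qk := by
  have a1 : C2 * (Λ * q) ≤ C2 * (Λ * qk) := by gcongr
  have a2 : C2 * (ε * q) ≤ C2 * (ε * qk) := by gcongr
  have a3 : C2 * (e1 * q) ≤ C2 * (ε * qk) := by gcongr
  have a4 : 0 ≤ C2 * (Λ * qk) := by have := hq.trans hqk; positivity
  have a5 : 0 ≤ C2 * (ε * qk) := by have := hq.trans hqk; positivity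
  subst h2
  nlinarith only [hI, a1, a2, a3, a4, a5]


variable {u : R3 → ℝ}

/-- the ray data at a good point. -/
lemma ray_data {s3 cl C1' M Cth Λ τ : ℝ} {χ : R3 → ℝ} {x : R3} (hs3 : 0 < s3)
    (hu : Sol u) (hlt : ∀ x, |u x| < 1) (hx : |phi u x| ≤ s3)
    (hH : |hh u x| ≤ M * qq u x) (hK : |kk u x| ≤ M * qq u x) (hM : 0 ≤ M) (hC1' : 0 ≤ C1')
    (hcl : 0 ≤ cl)
    (hup : ∀ t, 1 - pn u x t ≤ C1' * (1 + |t|) ^ 2 * Real.exp (2 * Real.sqrt 2 * |t|) * qq u x)
    (hlow : ∀ t, |t| ≤ 2 * s3 + 2 → cl * qq u x ≤ 1 - pn u x t)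
    (hCth : ∀ t, |deriv th t| ≤ Cth) (hΛ0 : 0 ≤ Λ) (hΛ1 : Λ ≤ 1)
    (hχ : ContDiff ℝ 1 χ) (hχb : ∀ y, 0 ≤ χ y ∧ χ y ≤ 1) (hχd : ∀ y i, |pd i χ y| ≤ Λ)
    (hτ1 : 2 * s3 + 2 ≤ τ) :
    H873.Ray s3 cl (C1' + M) (2 * Cth) (phi u x) (hh u x) (kk u x) (qq u x) Λ τ (τ + 1)
      (fun t => phi u (xt u x t)) (fun t => χ (xt u x t) / 2)
      (fun t => (∑ i, nn u x i * pd i χ (xt u x t)) / 2) (zt τ) (dz τ) := by
  have hτ0 : 0 ≤ τ := by linarith
  have hq0 := qq_nonneg hu hlt x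
  have hxtc := xt_continuous u x
  have hcSc : Continuous fun t => ∑ i, nn u x i * pd i χ (xt u x t) := by
    refine continuous_finset_sum _ fun i _ => continuous_const.mul ((continuous_pd hχ).comp hxtc)
  have hcd : ∀ t, HasDerivAt (fun t => χ (xt u x t) / 2)
      ((∑ i, nn u x i * pd i χ (xt u x t)) / 2) t := by
    intro t
    have h1 := hasDerivAt_xt (u := u) (hχ.differentiable (by norm_num)) x t
    have h2 := h1.div_const 2
    refine h2.congr_deriv ?_
    congr 1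
    exact Finset.sum_congr rfl fun i _ => mul_comm _ _
  have hcS_le : ∀ t, |∑ i, nn u x i * pd i χ (xt u x t)| ≤ 2 * Λ := by
    intro t
    have h1 := Finset.sum_mul_sq_le_sq_mul_sq Finset.univ (fun i => nn u x i)
      (fun i => pd i χ (xt u x t))
    have h2 := nn_sq_le u x
    have h3 : ∑ i, pd i χ (xt u x t) ^ 2 ≤ 3 * Λ ^ 2 := by
      calc ∑ i, pd i χ (xt u x t) ^ 2 ≤ ∑ i : Fin 3, Λ ^ 2 := by
            refine Finset.sum_le_sum fun i _ => ?_
            rw [← sq_abs]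
            exact pow_le_pow_left₀ (abs_nonneg _) (hχd _ i) 2
        _ = 3 * Λ ^ 2 := by simp
    have h4 : 0 ≤ ∑ i, pd i χ (xt u x t) ^ 2 := Finset.sum_nonneg fun _ _ => sq_nonneg _
    apply abs_le_of_sq_le_sq _ (by positivity)
    have h5 : (∑ i, nn u x i * pd i χ (xt u x t)) ^ 2 ≤ 1 * (3 * Λ ^ 2) := h1.trans (by gcongr)
    nlinarith [sq_nonneg Λ]
  refine H873.Ray.of_deriv (p := pn u x) hx hq0 ?_ ?_ ?_ (hasDerivAt_phi_xt hu hlt x)
    (pn_abs_le hu hlt x) ?_ ?_ hcl hcd ?_ ?_ ?_ ?_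
    hΛ1 (zt_hasDerivAt hτ0) (dz_continuous τ) (zt_nonneg τ) (zt_le_one τ)
    (fun t ht => zt_one ht) (fun t ht => zt_zero ht) (dz_abs_le hCth τ) hτ1 (by linarith)
  · refine hH.trans ?_; gcongr; linarith
  · refine hK.trans ?_; gcongr; linarith
  · show phi u (xt u x 0) = phi u x
    rw [xt_zero]
  · intro t
    refine (hup t).trans ?_
    have h0 : 0 ≤ M * qq u x * ((1 + |t|) ^ 2 * Real.exp (2 * Real.sqrt 2 * |t|)) := by positivity
    nlinarith only [h0]
  · intro t ht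
    exact hlow t (by linarith)
  · exact hcSc.div_const 2
  · intro t; have := (hχb (xt u x t)).1; linarith
  · intro t; have := (hχb (xt u x t)).2; linarith
  · intro t
    rw [abs_div, abs_of_pos (by norm_num : (0:ℝ) < 2)]
    have := hcS_le t
    linarith

lemma hasDerivAt_prf {ε κ : ℝ} {x : R3} (hτ0 : 0 ≤ dep ε κ u x) (t : ℝ) :
    HasDerivAt (prf ε κ u x) (g2 (phi u x + t) * zt (dep ε κ u x) t
      + g1 (phi u x + t) * dz (dep ε κ u x) t) t := by
  have hga : HasDerivAt (fun t => g1 (phi u x + t)) (g2 (phi u x + t)) t := by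
    have := (hasDerivAt_g1 (phi u x + t)).comp t ((hasDerivAt_id t).const_add (phi u x))
    exact this.congr_deriv (by simp)
  exact hga.mul (zt_hasDerivAt hτ0 t)

lemma deriv_prf_sq {ε κ : ℝ} {x : R3} (hτ0 : 0 ≤ dep ε κ u x) (t : ℝ) :
    deriv (fun s => prf ε κ u x s ^ 2) t = 2 * (prf ε κ u x t * (g2 (phi u x + t) *
      zt (dep ε κ u x) t + g1 (phi u x + t) * dz (dep ε κ u x) t)) := by
  have h2 : HasDerivAt (fun s => prf ε κ u x s ^ 2) _ t := (hasDerivAt_prf hτ0 t).pow 2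
  rw [h2.deriv]
  push_cast
  ring

lemma continuous_g1s (a : ℝ) : Continuous fun t => g1 (a + t) := by
  have h : Continuous g1 := continuous_iff_continuousAt.2 fun t => (hasDerivAt_g1 t).continuousAt
  exact h.comp (continuous_const.add continuous_id)

lemma continuous_g2s (a : ℝ) : Continuous fun t => g2 (a + t) := by
  have h0 : Continuous g0 := continuous_iff_continuousAt.2 fun t => (hasDerivAt_g0 t).continuousAt
  have h : Continuous g2 := by unfold g2; fun_prop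
  exact h.comp (continuous_const.add continuous_id)

lemma int_eq {ε κ : ℝ} {χ : R3 → ℝ} {x : R3} (hu : Sol u) (hlt : ∀ x, |u x| < 1)
    (hχ : ContDiff ℝ 1 χ) (hτ0 : 0 ≤ dep ε κ u x) :
    (∫ t, χ (xt u x t) * (jj u x t * (deriv (prf ε κ u x) t ^ 2
        + VV u (xt u x t) * prf ε κ u x t ^ 2)))
      + (1 / 2) * ∫ t, jj u x t * deriv (fun s => prf ε κ u x s ^ 2) t *
          ∑ i, nn u x i * pd i χ (xt u x t)
      = 2 * ∫ t, H873.Ray.lhs (phi u x) (hh u x) (kk u x) 0 (fun t => phi u (xt u x t))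
          (fun t => χ (xt u x t) / 2) (fun t => (∑ i, nn u x i * pd i χ (xt u x t)) / 2)
          (zt (dep ε κ u x)) (dz (dep ε κ u x)) t := by
  set τ := dep ε κ u x with hτdef
  set D : ℝ → ℝ := fun t => g2 (phi u x + t) * zt τ t + g1 (phi u x + t) * dz τ t with hD
  set cS : ℝ → ℝ := fun t => ∑ i, nn u x i * pd i χ (xt u x t) with hcS
  have hxtc := xt_continuous u x
  have hcSc : Continuous cS := by
    refine continuous_finset_sum _ fun i _ => continuous_const.mul ((continuous_pd hχ).comp hxtc)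
  have hprf := fun t => hasDerivAt_prf (u := u) (x := x) (ε := ε) (κ := κ) hτ0 t
  have hdprf : ∀ t, deriv (prf ε κ u x) t = D t := fun t => (hprf t).deriv
  have hdsq : ∀ t, deriv (fun s => prf ε κ u x s ^ 2) t = 2 * (prf ε κ u x t * D t) :=
    deriv_prf_sq hτ0
  have hprfc : Continuous (prf ε κ u x) :=
    continuous_iff_continuousAt.2 fun t => (hprf t).continuousAt
  have hg1c := continuous_g1s (phi u x)
  have hg2c := continuous_g2s (phi u x)
  have hztc : Continuous (zt τ) :=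
    continuous_iff_continuousAt.2 fun t => (zt_hasDerivAt hτ0 t).continuousAt
  have hdzc := dz_continuous τ
  have hDc : Continuous D := by simp only [hD]; fun_prop
  have hJc : Continuous fun t => jj u x t := by unfold jj; fun_prop
  have hχc : Continuous fun t => χ (xt u x t) := hχ.continuous.comp hxtc
  have huc : Continuous fun t => u (xt u x t) := (hu.c2.continuous).comp hxtc
  have hVc : Continuous fun t => VV u (xt u x t) := by
    unfold VV
    exact (continuous_const.mul (huc.pow 2)).sub continuous_const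
  have hprf0 : ∀ t, τ + 1 < |t| → prf ε κ u x t = 0 := fun t ht => by
    unfold prf; rw [← hτdef, zt_zero ht.le, mul_zero]
  have hD0 : ∀ t, τ + 1 < |t| → D t = 0 := fun t ht => by
    simp only [hD]; rw [zt_zero ht.le, dz_zero hτ0 ht]; ring
  simp_rw [hdprf, hdsq]
  have iA : Integrable fun t => χ (xt u x t) * (jj u x t * (D t ^ 2
      + VV u (xt u x t) * prf ε κ u x t ^ 2)) := by
    refine H873.Ray.integrable_of_zero (by fun_prop) (τ + 1) fun t ht => ?_
    rw [hprf0 t ht, hD0 t ht]; ring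
  have iB : Integrable fun t => jj u x t * (2 * (prf ε κ u x t * D t)) * cS t := by
    refine H873.Ray.integrable_of_zero (by fun_prop) (τ + 1) fun t ht => ?_
    rw [hprf0 t ht]; ring
  rw [← integral_const_mul, ← integral_const_mul, ← integral_add iA (iB.const_mul _)]
  refine integral_congr_ae (Filter.Eventually.of_forall fun t => ?_)
  have e1 : g0 (phi u (xt u x t)) = u (xt u x t) := g0_phi hlt _
  have e2 : prf ε κ u x t = g1 (phi u x + t) * zt τ t := rfl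
  have e3 : H873.J (hh u x) (kk u x) t = jj u x t := rfl
  have e4 : VV u (xt u x t) = 3 * u (xt u x t) ^ 2 - 1 := rfl
  simp only [H873.Ray.lhs, g1_eq', g2_eq', g_eq', e1, e2, e3, e4]
  have e5 : ∑ i, nn u x i * pd i χ (xt u x t) = cS t := rfl
  simp only [hD, e5]
  generalize cS t = S
  generalize χ (xt u x t) = X
  generalize jj u x t = J
  generalize u (xt u x t) = U
  generalize g1 (phi u x + t) = G1
  generalize g2 (phi u x + t) = G2
  generalize zt τ t = Z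
  generalize dz τ t = DZ
  ring

end PW

open PW

theorem stPW : StPW := by
  intro s3 hs3
  obtain ⟨c1', C1', hc1', hC1', hray⟩ := ray s3 hs3
  obtain ⟨cl, hcl, hlow⟩ := ray_low s3 hs3
  obtain ⟨M, hM1, hgeo⟩ := H919.exists_geo_bound
  obtain ⟨Cth, hCth1, hCth⟩ := exists_th_bound
  obtain ⟨c2, hc2, C2, hC2, hli⟩ := H873.Ray.li6 s3 cl (C1' + M) (2 * Cth) hs3.le hcl
    (by positivity) (by positivity)
  have hr2 := r2_pos
  set ε0 : ℝ := min 1 (Real.exp (-(2 * Real.sqrt 2 * (2 * s3 + 2))) / 2) with hε0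
  have hε0pos : 0 < ε0 := by positivity
  refine ⟨c2, 8 * C2, ε0, hc2, by positivity, hε0pos, ?_⟩
  intro ε hε hεε0
  obtain ⟨δ, hδ, hli'⟩ := hli ε hε
  obtain ⟨δ1, hδ1, htau⟩ := H919.tau_small (ρ := Real.sqrt δ / 2) (by positivity) hε
  refine ⟨min (1 / 2) (min ε δ1), by positivity, ?_⟩
  intro κ Λ hκ hκ0 hΛ0 hΛ1 u hu hlt χ hχ hχb hχd x hx hq
  have hq12 : qq u x ≤ 1 / 2 := hq.trans (min_le_left _ _)
  have hqε : qq u x ≤ ε := hq.trans ((min_le_right _ _).trans (min_le_left _ _))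
  have hqδ : qq u x ≤ δ1 := hq.trans ((min_le_right _ _).trans (min_le_right _ _))
  have hq0 := qq_nonneg hu hlt x
  have hε1 : ε ≤ 1 := hεε0.trans (min_le_left _ _)
  have hκ1 : κ ≤ 1 := hκ0.trans (min_le_left _ _)
  obtain ⟨_, hg⟩ := hgeo u hu hlt x
  obtain ⟨hH, hK, _, _⟩ := hg (by linarith)
  obtain ⟨hpn, hpn1, _, _, hup, _⟩ := hray u hu hlt x hx
  have hlow' := hlow u hu hlt x hx
  have hexp := exp_dep hu hlt hε hκ x
  have hz0 : 0 < ε * (qq u x + κ ^ 2) := by positivity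
  -- `τ ≥ 2 s3 + 2`
  have hτ1 : 2 * s3 + 2 ≤ dep ε κ u x := by
    have h1 : ε * (qq u x + κ ^ 2) ≤ Real.exp (-(2 * Real.sqrt 2 * (2 * s3 + 2))) := by
      have h2 : ε ≤ Real.exp (-(2 * Real.sqrt 2 * (2 * s3 + 2))) / 2 :=
        hεε0.trans (min_le_right _ _)
      have h3 : qq u x + κ ^ 2 ≤ 2 := by nlinarith
      calc ε * (qq u x + κ ^ 2) ≤ Real.exp (-(2 * Real.sqrt 2 * (2 * s3 + 2))) / 2 * 2 := by gcongr
        _ = _ := by ring
    rw [← hexp, Real.exp_le_exp] at h1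
    have h2 : 2 * Real.sqrt 2 * (2 * s3 + 2) ≤ 2 * Real.sqrt 2 * dep ε κ u x := by linarith
    exact le_of_mul_le_mul_left h2 (by positivity)
  have hτ0 : 0 ≤ dep ε κ u x := by linarith
  have hR := ray_data (χ := χ) hs3 hu hlt hx hH hK (by linarith) hC1'.le hcl.le hup hlow' hCth
    hΛ0 hΛ1 hχ hχb hχd hτ1
  have hqT : qq u x * (1 + (dep ε κ u x + 1)) ^ 2 ≤ δ := by
    have h1 := htau (qq u x) κ hq0 hqδ hκ
    have h2 : Real.log (1 / (ε * (qq u x + κ ^ 2))) / (2 * Real.sqrt 2) = dep ε κ u x := rfl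
    rw [h2] at h1
    have hs2 : Real.sqrt (qq u x) ^ 2 = qq u x := Real.sq_sqrt hq0
    have hd2 : Real.sqrt δ ^ 2 = δ := Real.sq_sqrt hδ.le
    have h3 : (1 + (dep ε κ u x + 1)) * Real.sqrt (qq u x) ≤ Real.sqrt δ := by
      have h4 : 1 + (dep ε κ u x + 1) ≤ 2 * (dep ε κ u x + 1) := by linarith
      calc (1 + (dep ε κ u x + 1)) * Real.sqrt (qq u x)
          ≤ 2 * (dep ε κ u x + 1) * Real.sqrt (qq u x) := by gcongr
        _ = 2 * ((dep ε κ u x + 1) * Real.sqrt (qq u x)) := by ring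
        _ ≤ 2 * (Real.sqrt δ / 2) := by gcongr
        _ = _ := by ring
    have h5 : ((1 + (dep ε κ u x + 1)) * Real.sqrt (qq u x)) ^ 2 ≤ Real.sqrt δ ^ 2 :=
      pow_le_pow_left₀ (by positivity) h3 2
    rw [mul_pow, hs2, hd2] at h5
    linarith
  obtain ⟨hint, hI⟩ := hli' _ _ _ _ _ _ _ 0 _ _ _ _ _ hR le_rfl hqT
  rw [int_eq hu hlt hχ hτ0]
  have hI2 := hI
  rw [xt_zero] at hI2
  refine final_alg (sK := sig0 * kk u x) (e1 := Real.exp (-(Real.sqrt 2 * dep ε κ u x)))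
    (hI2.trans (le_of_eq ?_)) hC2.le hq0 (by nlinarith [sq_nonneg κ]) hΛ0 hε.le ?_ hexp
  · unfold sig0; ring
  -- `e^{-√2 τ} q ≤ ε (q + κ²)`
  · have hE : Real.exp (-(Real.sqrt 2 * dep ε κ u x)) ^ 2 = ε * (qq u x + κ ^ 2) := by
      rw [← hexp, ← Real.exp_nat_mul]; congr 1; push_cast; ring
    have hE0 := Real.exp_pos (-(Real.sqrt 2 * dep ε κ u x))
    have h1 : (Real.exp (-(Real.sqrt 2 * dep ε κ u x)) * qq u x) ^ 2
        ≤ (ε * (qq u x + κ ^ 2)) ^ 2 := by
      rw [mul_pow, hE]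
      have h2 : qq u x ^ 2 ≤ ε * (qq u x + κ ^ 2) := by
        have h3 : qq u x * qq u x ≤ ε * qq u x := by gcongr
        nlinarith [sq_nonneg κ, mul_nonneg hε.le (sq_nonneg κ)]
      calc ε * (qq u x + κ ^ 2) * qq u x ^ 2
          ≤ ε * (qq u x + κ ^ 2) * (ε * (qq u x + κ ^ 2)) := by gcongr
        _ = _ := by ring
    exact le_of_abs_le (abs_le_of_sq_le_sq h1 hz0.le)

end Vale.Agent.P134.H147
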