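import Vale.Agent.P134.H147.Ray
import Vale.Agent.P134.H283.Low

/-! P134, R3, block LI-RAY, final form. -/

set_option linter.all false

namespace Vale.Agent.P134.H147

open Vale.Agent.P134 Vale.Agent.P134.SM Vale.Agent.P134.LI Vale.Agent.P134.H283 MeasureTheory
  Filter Topology

theorem yuk : Yuk (1 / cY 3 2) := by
  have hc := cY_pos 3 2
  refine ⟨by positivity, ?_⟩
  intro u hu e he x y
  have h := yukawa (n := 3) (m := 2) (by norm_num) (nice_Vd hu e) (Vd_nonneg hu he)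
    (abs_lap_Vd_le hu he) x y
  have h0 := eno_nonneg (y - x)
  have hE := Real.exp_pos (Real.sqrt 2 * eno (y - x))
  have hp : 0 < (1 + eno (y - x)) ^ 2 := by positivity
  rw [Real.exp_neg] at h
  have h1 := mul_le_mul_of_nonneg_left h
    (show 0 ≤ 1 / cY 3 2 * (1 + eno (y - x)) ^ 2 * Real.exp (Real.sqrt 2 * eno (y - x)) by
      positivity)
  refine le_trans (le_of_eq ?_) h1
  field_simp

/-- **LI-RAY**: all facts on the ray through a base point of the slab. -/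
theorem ray (s3 : ℝ) (hs3 : 0 < s3) : ∃ c1 C1 : ℝ, 0 < c1 ∧ 0 < C1 ∧
    ∀ u : R3 → ℝ, Sol u → (∀ x, |u x| < 1) → ∀ x : R3, |phi u x| ≤ s3 →
      (∀ t, HasDerivAt (fun t => phi u (xt u x t)) (pn u x t) t) ∧
      (∀ t, |pn u x t| ≤ 1) ∧ Monotone (yy u x) ∧ yy u x 0 = 0 ∧
      (∀ t, 1 - pn u x t ≤ C1 * (1 + |t|) ^ 2 * Real.exp (2 * Real.sqrt 2 * |t|) * qq u x) ∧
      (∀ t, |t| ≤ 2 * s3 + 2 → c1 * qq u x * |t| ≤ |yy u x t|) ∧
      (∀ t, |yy u x t| ≤ C1 * (1 + |t|) ^ 2 * Real.exp (2 * Real.sqrt 2 * |t|) * qq u x) ∧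
      (∀ t, qq u x * Real.exp (2 * Real.sqrt 2 * |t|) ≤ 1 →
        |ff u (xt u x t) ^ 2 - g1 (phi u x + t) ^ 2| ≤ C1 * (1 + |t|) ^ 4 * qq u x) ∧
      (∀ t, ∑ i, (pd i (phi u) (xt u x t) - nn u x i) ^ 2 ≤ 2 * (1 - pn u x t)) :=
  ray_of_yuk yuk s3 hs3

/-- the pointwise lower bound `c q ≤ 1 - p(x~)·n` for `|t| ≤ 2 s3 + 2`. -/
theorem ray_low (s3 : ℝ) (hs3 : 0 < s3) : ∃ c : ℝ, 0 < c ∧
    ∀ u : R3 → ℝ, Sol u → (∀ x, |u x| < 1) → ∀ x : R3, |phi u x| ≤ s3 →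
      ∀ t, |t| ≤ 2 * s3 + 2 → c * qq u x ≤ 1 - pn u x t := by
  refine ⟨Real.exp (-(3 * cH 3 2 * (2 * s3 + 2))) * Real.exp (-(Real.sqrt 2 * s3)) / 2,
    by positivity, ?_⟩
  intro u hu h x hx t ht
  exact le_one_sub_pn hu h hx ht

end Vale.Agent.P134.H147
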