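import Vale.Agent.P134.H147.Base

/-! P134, R3, block LI-RAY: the profile along the normal ray of a level set. -/

set_option linter.all false

namespace Vale.Agent.P134.H147

open Vale.Agent.P134 Vale.Agent.P134.SM Vale.Agent.P134.LI Vale.Agent.P134.H283 MeasureTheory
  Filter Topology

variable {u : R3 → ℝ} {x n : R3} {s t K s3 : ℝ}

/-- derivative of `φ` along the ray. -/
noncomputable def pn (u : R3 → ℝ) (x : R3) (t : ℝ) : ℝ :=
  ∑ i, pd i (phi u) (xt u x t) * nn u x i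

lemma xt_eq (u : R3 → ℝ) (x : R3) (t : ℝ) : xt u x t = x + t • nn u x := by
  funext i; simp [xt]

lemma xt_zero (u : R3 → ℝ) (x : R3) : xt u x 0 = x := by rw [xt_eq]; simp

lemma hasDerivAt_xt {f : R3 → ℝ} (hf : Differentiable ℝ f) (x : R3) (t : ℝ) :
    HasDerivAt (fun t => f (xt u x t)) (∑ i, pd i f (xt u x t) * nn u x i) t := by
  have h := hasDerivAt_dir (w := f) (x := x) (v := nn u x) (s := t) (hf _)
  rw [fderiv_eq_sum_pd] at h
  simp_rw [xt_eq]
  convert h using 1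
  exact Finset.sum_congr rfl fun i _ => mul_comm _ _

lemma hasDerivAt_phi_xt (hu : Sol u) (h : ∀ x, |u x| < 1) (x : R3) (t : ℝ) :
    HasDerivAt (fun t => phi u (xt u x t)) (pn u x t) t :=
  hasDerivAt_xt (phi_diff hu h) x t

lemma pn_zero (u : R3 → ℝ) (x : R3) : pn u x 0 = rr u x := by
  unfold pn; rw [xt_zero]; exact sum_pd_nn u x

lemma pn_sq_le (hu : Sol u) (h : ∀ x, |u x| < 1) (x : R3) (t : ℝ) :
    pn u x t ^ 2 ≤ gs (phi u) (xt u x t) := by
  have h1 := Finset.sum_mul_sq_le_sq_mul_sq Finset.univ (fun i => pd i (phi u) (xt u x t))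
    (fun i => nn u x i)
  have h2 := nn_sq_le u x
  have h3 : gs (phi u) (xt u x t) = ∑ i, pd i (phi u) (xt u x t) ^ 2 := rfl
  have h4 := gs_nonneg (phi u) (xt u x t)
  unfold pn
  rw [← h3] at h1
  nlinarith only [h1, h2, h4]

lemma pn_abs_le (hu : Sol u) (h : ∀ x, |u x| < 1) (x : R3) (t : ℝ) : |pn u x t| ≤ 1 := by
  have h1 := pn_sq_le hu h x t
  have h2 := gs_phi_le hu h (xt u x t)
  exact abs_le_of_sq_le_sq (by nlinarith only [h1, h2]) (by norm_num) |> fun h => h

/-- the deviation `y(t) = φ(x) + t - φ(x~)`. -/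
noncomputable def yy (u : R3 → ℝ) (x : R3) (t : ℝ) : ℝ := phi u x + t - phi u (xt u x t)

lemma yy_zero (u : R3 → ℝ) (x : R3) : yy u x 0 = 0 := by unfold yy; rw [xt_zero]; ring

lemma hasDerivAt_yy (hu : Sol u) (h : ∀ x, |u x| < 1) (x : R3) (t : ℝ) :
    HasDerivAt (yy u x) (1 - pn u x t) t := by
  have h1 := ((hasDerivAt_id t).const_add (phi u x)).sub (hasDerivAt_phi_xt hu h x t)
  exact h1

lemma yy_mono (hu : Sol u) (h : ∀ x, |u x| < 1) (x : R3) : Monotone (yy u x) := by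
  apply monotone_of_deriv_nonneg (fun t => (hasDerivAt_yy hu h x t).differentiableAt)
  intro t
  rw [(hasDerivAt_yy hu h x t).deriv]
  linarith [(abs_le.mp (pn_abs_le hu h x t)).2]

lemma yy_nonneg (hu : Sol u) (h : ∀ x, |u x| < 1) (x : R3) (ht : 0 ≤ t) : 0 ≤ yy u x t := by
  have := yy_mono hu h x ht; rwa [yy_zero] at this

/-- `|φ(x~) - φ(x)| ≤ |t|`. -/
lemma phi_xt_le (hu : Sol u) (h : ∀ x, |u x| < 1) (x : R3) (t : ℝ) :
    |phi u (xt u x t) - phi u x| ≤ |t| := by
  have h1 := (convex_univ (𝕜 := ℝ) (E := ℝ)).norm_image_sub_le_of_norm_hasDerivWithin_le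
    (f := fun s : ℝ => phi u (xt u x s)) (f' := fun s => pn u x s) (C := 1) (x := 0) (y := t)
    (fun s _ => (hasDerivAt_phi_xt hu h x s).hasDerivWithinAt)
    (fun s _ => by simpa only [Real.norm_eq_abs] using pn_abs_le hu h x s)
    (Set.mem_univ _) (Set.mem_univ _)
  simpa only [xt_zero, Real.norm_eq_abs, sub_zero, one_mul] using h1

lemma dd_nn (hu : Sol u) (h : ∀ x, |u x| < 1) (x : R3) (t : ℝ) :
    dd (nn u x) u (xt u x t) = ff u (xt u x t) * pn u x t := by
  unfold dd pn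
  rw [Finset.mul_sum]
  refine Finset.sum_congr rfl fun i _ => ?_
  rw [pd_u hu h]; ring

/-- `V_{-n}(x~) = f(x~) (1 - p(x~)·n)/2`. -/
lemma Vd_neg_nn (hu : Sol u) (h : ∀ x, |u x| < 1) (x : R3) (t : ℝ) :
    Vd (-nn u x) u (xt u x t) = ff u (xt u x t) * (1 - pn u x t) / 2 := by
  unfold Vd
  rw [dd_neg_left, dd_nn hu h, ff_eq_psi]
  ring

lemma neg_nn_sq (u : R3 → ℝ) (x : R3) : ∑ i, (-nn u x) i ^ 2 ≤ 1 := neg_unit (nn_sq_le u x)

/-- `V_{-n}(x) = f(x) (1 - |∇φ|(x))/2`, hence it is comparable with `f q`. -/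
lemma Vd_base (hu : Sol u) (h : ∀ x, |u x| < 1) (x : R3) :
    Vd (-nn u x) u x = ff u x * (1 - rr u x) / 2 := by
  have h1 := Vd_neg_nn hu h x 0
  rwa [xt_zero, pn_zero] at h1

lemma Vd_base_le (hu : Sol u) (h : ∀ x, |u x| < 1) (x : R3) :
    Vd (-nn u x) u x ≤ ff u x * qq u x / 2 := by
  rw [Vd_base hu h, qq_eq]
  have h1 := ff_pos h x
  have h2 := rr_nonneg u x
  have h3 := rr_le_one hu h x
  have : 0 ≤ ff u x * (1 - rr u x) * rr u x := by
    apply mul_nonneg (mul_nonneg h1.le (by linarith)) h2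
  nlinarith only [this]

lemma le_Vd_base (hu : Sol u) (h : ∀ x, |u x| < 1) (x : R3) :
    ff u x * qq u x / 4 ≤ Vd (-nn u x) u x := by
  rw [Vd_base hu h, qq_eq]
  have h1 := ff_pos h x
  have h2 := rr_nonneg u x
  have h3 := rr_le_one hu h x
  have : 0 ≤ ff u x * (1 - rr u x) * (1 - rr u x) := by
    apply mul_nonneg (mul_nonneg h1.le (by linarith)) (by linarith)
  nlinarith only [this]

lemma eno_nn_le (u : R3 → ℝ) (x : R3) (t : ℝ) : eno (xt u x t - x) ≤ |t| := by
  have h1 : esq (xt u x t - x) = t ^ 2 * ∑ i, nn u x i ^ 2 := by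
    rw [xt_eq]; unfold esq
    rw [Finset.mul_sum]
    refine Finset.sum_congr rfl fun i _ => ?_
    simp; ring
  unfold eno
  rw [h1, ← Real.sqrt_sq_eq_abs]
  apply Real.sqrt_le_sqrt
  nlinarith [nn_sq_le u x, sq_nonneg t]

lemma norm_xt_le (u : R3 → ℝ) (x : R3) (t : ℝ) : ‖xt u x t - x‖ ≤ |t| :=
  (norm_le_eno _).trans (eno_nn_le u x t)

/-- The Yukawa (far) Harnack bound with constant `K`. -/
def Yuk (K : ℝ) : Prop := 0 ≤ K ∧ ∀ u : R3 → ℝ, Sol u → ∀ e : R3, ∑ i, e i ^ 2 ≤ 1 → ∀ x y : R3,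
  Vd e u y ≤ K * (1 + eno (y - x)) ^ 2 * Real.exp (Real.sqrt 2 * eno (y - x)) * Vd e u x

lemma Vd_ray_le (hK : Yuk K) (hu : Sol u) (h : ∀ x, |u x| < 1) (x : R3) (t : ℝ) :
    Vd (-nn u x) u (xt u x t)
      ≤ K * (1 + |t|) ^ 2 * Real.exp (Real.sqrt 2 * |t|) * (qq u x / 2) := by
  have h1 := hK.2 u hu (-nn u x) (neg_nn_sq u x) x (xt u x t)
  have h2 := eno_nn_le u x t
  have h3 := Vd_base_le hu h x
  have h4 : ff u x * qq u x / 2 ≤ qq u x / 2 := by
    have := ff_le u x
    have hq := qq_nonneg hu h x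
    have h5 : 1 / Real.sqrt 2 ≤ 1 := by
      rw [div_le_one r2_pos]; exact r2_one_le
    nlinarith [mul_le_mul_of_nonneg_right (this.trans h5) hq]
  have hK0 := hK.1
  have h0 := eno_nonneg (xt u x t - x)
  have hV := Vd_nonneg hu (neg_nn_sq u x) x
  refine h1.trans ?_
  have ha : K * (1 + eno (xt u x t - x)) ^ 2 ≤ K * (1 + |t|) ^ 2 := by
    apply mul_le_mul_of_nonneg_left _ hK0
    apply pow_le_pow_left₀ (by positivity); linarith
  have hb : Real.exp (Real.sqrt 2 * eno (xt u x t - x)) ≤ Real.exp (Real.sqrt 2 * |t|) :=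
    Real.exp_le_exp.mpr (mul_le_mul_of_nonneg_left h2 r2_pos.le)
  exact mul_le_mul (mul_le_mul ha hb (Real.exp_pos _).le (by positivity)) (h3.trans h4) hV
    (by positivity)

lemma abs_phi_xt_le (hu : Sol u) (h : ∀ x, |u x| < 1) (hx : |phi u x| ≤ s3) (t : ℝ) :
    |phi u (xt u x t)| ≤ s3 + |t| := by
  have h1 := phi_xt_le hu h x t
  have h2 : |phi u (xt u x t)| ≤ |phi u (xt u x t) - phi u x| + |phi u x| := by
    have := abs_add_le (phi u (xt u x t) - phi u x) (phi u x)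
    simpa using this
  linarith

lemma ff_xt_ge (hu : Sol u) (h : ∀ x, |u x| < 1) (hx : |phi u x| ≤ s3) (t : ℝ) :
    1 / Real.sqrt 2 * Real.exp (-(Real.sqrt 2 * (s3 + |t|))) ≤ ff u (xt u x t) := by
  rw [← g1_phi h]
  refine le_trans ?_ (le_g1 _)
  apply mul_le_mul_of_nonneg_left _ (by have := r2_pos; positivity)
  apply Real.exp_le_exp.mpr
  have := mul_le_mul_of_nonneg_left (abs_phi_xt_le hu h hx t) r2_pos.le
  linarith

/-- **(R1)** -/
theorem one_sub_pn_le (hK : Yuk K) (hu : Sol u) (h : ∀ x, |u x| < 1) (hx : |phi u x| ≤ s3)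
    (t : ℝ) :
    1 - pn u x t ≤ (Real.sqrt 2 * K * Real.exp (Real.sqrt 2 * s3)) * (1 + |t|) ^ 2 *
      Real.exp (2 * Real.sqrt 2 * |t|) * qq u x := by
  have h1 := Vd_ray_le hK hu h x t
  rw [Vd_neg_nn hu h] at h1
  have h2 := ff_xt_ge hu h hx t
  have h3 : 0 ≤ 1 - pn u x t := by linarith [(abs_le.mp (pn_abs_le hu h x t)).2]
  have h4 : 1 / Real.sqrt 2 * Real.exp (-(Real.sqrt 2 * (s3 + |t|))) * (1 - pn u x t) / 2
      ≤ K * (1 + |t|) ^ 2 * Real.exp (Real.sqrt 2 * |t|) * (qq u x / 2) := by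
    refine le_trans ?_ h1
    have := mul_le_mul_of_nonneg_right h2 h3
    linarith
  have hs := r2_pos
  set E := Real.exp (Real.sqrt 2 * (s3 + |t|)) with hE
  have hE0 : 0 < E := Real.exp_pos _
  have hEm : Real.exp (-(Real.sqrt 2 * (s3 + |t|))) = E⁻¹ := by rw [Real.exp_neg]
  rw [hEm] at h4
  have h5 : 1 - pn u x t ≤ Real.sqrt 2 * E * (K * (1 + |t|) ^ 2 * Real.exp (Real.sqrt 2 * |t|)
      * qq u x) := by
    have h6 := mul_le_mul_of_nonneg_left h4 (show 0 ≤ 2 * (Real.sqrt 2 * E) by positivity)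
    have e1 : 2 * (Real.sqrt 2 * E) * (1 / Real.sqrt 2 * E⁻¹ * (1 - pn u x t) / 2)
        = 1 - pn u x t := by field_simp
    rw [e1] at h6
    linarith
  refine h5.trans (le_of_eq ?_)
  have e2 : E = Real.exp (Real.sqrt 2 * s3) * Real.exp (Real.sqrt 2 * |t|) := by
    rw [hE, ← Real.exp_add]; congr 1; ring
  have e3 : Real.exp (2 * Real.sqrt 2 * |t|)
      = Real.exp (Real.sqrt 2 * |t|) * Real.exp (Real.sqrt 2 * |t|) := by
    rw [← Real.exp_add]; congr 1; ring
  rw [e2, e3]; ring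

/-- **(R4)** -/
theorem dev_sq_le (hu : Sol u) (h : ∀ x, |u x| < 1) (x : R3) (t : ℝ) :
    ∑ i, (pd i (phi u) (xt u x t) - nn u x i) ^ 2 ≤ 2 * (1 - pn u x t) := by
  have h1 : ∑ i, (pd i (phi u) (xt u x t) - nn u x i) ^ 2
      = gs (phi u) (xt u x t) - 2 * pn u x t + ∑ i, nn u x i ^ 2 := by
    unfold gs pn
    rw [Finset.mul_sum, ← Finset.sum_sub_distrib, ← Finset.sum_add_distrib]
    refine Finset.sum_congr rfl fun i _ => ?_
    ring
  rw [h1]
  linarith [gs_phi_le hu h (xt u x t), nn_sq_le u x]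

/-- `q(x~) ≤ 2(1 - p(x~)·n)`. -/
theorem qq_xt_le (hu : Sol u) (h : ∀ x, |u x| < 1) (x : R3) (t : ℝ) :
    qq u (xt u x t) ≤ 2 * (1 - pn u x t) := by
  have h1 := pn_sq_le hu h x t
  have h2 : qq u (xt u x t) = 1 - gs (phi u) (xt u x t) := rfl
  nlinarith [sq_nonneg (1 - pn u x t)]

/-! ### lower bound -/

/-- Lower bound for `1 - p(x~)·n` on bounded pieces of the ray. -/
lemma le_one_sub_pn (hu : Sol u) (h : ∀ x, |u x| < 1) (hx : |phi u x| ≤ s3) {T : ℝ}
    (ht : |t| ≤ T) :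
    Real.exp (-(3 * cH 3 2 * T)) * Real.exp (-(Real.sqrt 2 * s3)) / 2 * qq u x
      ≤ 1 - pn u x t := by
  have hc : 0 < cH 3 2 := cH_pos 3 (by norm_num)
  have h1 := harnack_Vd hu (neg_nn_sq u x) (xt u x t) x
  have h2 := norm_xt_le u x t
  rw [norm_sub_rev] at h2
  have h3 := le_Vd_base hu h x
  have h4 := Vd_nonneg hu (neg_nn_sq u x) (xt u x t)
  have h5 : Real.exp (((3:ℕ):ℝ) * cH 3 2 * ‖x - xt u x t‖) ≤ Real.exp (3 * cH 3 2 * T) := by
    apply Real.exp_le_exp.mpr
    push_cast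
    apply mul_le_mul_of_nonneg_left (h2.trans ht) (by positivity)
  have h6 : ff u x * qq u x / 4 ≤ Real.exp (3 * cH 3 2 * T) * Vd (-nn u x) u (xt u x t) :=
    h3.trans (h1.trans (mul_le_mul_of_nonneg_right h5 h4))
  rw [Vd_neg_nn hu h] at h6
  have h7 : 0 ≤ 1 - pn u x t := by linarith [(abs_le.mp (pn_abs_le hu h x t)).2]
  have h8 := ff_le u (xt u x t)
  have h9 := ff_xt_ge hu h hx 0
  rw [xt_zero, abs_zero, add_zero] at h9
  have hq := qq_nonneg hu h x
  set P := Real.exp (3 * cH 3 2 * T) with hP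
  have hP0 : 0 < P := Real.exp_pos _
  have hPm : Real.exp (-(3 * cH 3 2 * T)) = P⁻¹ := by rw [Real.exp_neg]
  rw [hPm]
  have h10 : ff u (xt u x t) * (1 - pn u x t) ≤ 1 / Real.sqrt 2 * (1 - pn u x t) :=
    mul_le_mul_of_nonneg_right h8 h7
  have h11 : 1 / Real.sqrt 2 * Real.exp (-(Real.sqrt 2 * s3)) * qq u x ≤ ff u x * qq u x :=
    mul_le_mul_of_nonneg_right h9 hq
  have h12 : 1 / Real.sqrt 2 * Real.exp (-(Real.sqrt 2 * s3)) * qq u x / 4
      ≤ P * (1 / Real.sqrt 2 * (1 - pn u x t) / 2) := by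
    have := mul_le_mul_of_nonneg_left h10 hP0.le
    linarith
  have hs := r2_pos
  have h13 := mul_le_mul_of_nonneg_left h12 (show 0 ≤ 2 * Real.sqrt 2 * P⁻¹ by positivity)
  have e1 : 2 * Real.sqrt 2 * P⁻¹ * (P * (1 / Real.sqrt 2 * (1 - pn u x t) / 2))
      = 1 - pn u x t := by field_simp
  have e2 : 2 * Real.sqrt 2 * P⁻¹ * (1 / Real.sqrt 2 * Real.exp (-(Real.sqrt 2 * s3)) * qq u x / 4)
      = P⁻¹ * Real.exp (-(Real.sqrt 2 * s3)) / 2 * qq u x := by field_simp; ring
  rw [e1, e2] at h13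
  exact h13

/-- **(R2), lower bound** for `t ≥ 0`. -/
lemma le_yy_pos (hu : Sol u) (h : ∀ x, |u x| < 1) (hx : |phi u x| ≤ s3) {T : ℝ}
    (ht0 : 0 ≤ t) (ht : t ≤ T) :
    Real.exp (-(3 * cH 3 2 * T)) * Real.exp (-(Real.sqrt 2 * s3)) / 2 * qq u x * t
      ≤ yy u x t := by
  set c := Real.exp (-(3 * cH 3 2 * T)) * Real.exp (-(Real.sqrt 2 * s3)) / 2 * qq u x with hc
  have hmono : MonotoneOn (fun r => yy u x r - c * r) (Set.Icc 0 t) := by
    apply monotoneOn_of_deriv_nonneg (convex_Icc _ _)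
    · intro r _
      exact ((hasDerivAt_yy hu h x r).sub ((hasDerivAt_id r).const_mul c)).continuousAt.continuousWithinAt
    · intro r _
      exact ((hasDerivAt_yy hu h x r).sub ((hasDerivAt_id r).const_mul c)).differentiableAt.differentiableWithinAt
    · intro r hr
      rw [interior_Icc] at hr
      have hd := (hasDerivAt_yy hu h x r).sub ((hasDerivAt_id r).const_mul c)
      have : deriv (fun r => yy u x r - c * r) r = 1 - pn u x r - c * 1 := hd.deriv
      rw [this]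
      have h1 := le_one_sub_pn (t := r) hu h hx (T := T)
        (by rw [abs_of_pos hr.1]; linarith [hr.2])
      linarith
  have h1 := hmono (Set.left_mem_Icc.mpr ht0) (Set.right_mem_Icc.mpr ht0) ht0
  simp only [yy_zero, mul_zero, sub_zero] at h1
  linarith

/-- **(R2), upper bound** for `t ≥ 0`. -/
lemma yy_le_pos (hK : Yuk K) (hu : Sol u) (h : ∀ x, |u x| < 1) (hx : |phi u x| ≤ s3)
    (ht0 : 0 ≤ t) :
    yy u x t ≤ (Real.sqrt 2 * K * Real.exp (Real.sqrt 2 * s3)) * (1 + t) ^ 2 *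
      Real.exp (2 * Real.sqrt 2 * t) * qq u x := by
  set c := (Real.sqrt 2 * K * Real.exp (Real.sqrt 2 * s3)) with hc
  have hq := qq_nonneg hu h x
  have hc0 : 0 ≤ c := by have := hK.1; positivity
  set F : ℝ → ℝ := fun r => c * (1 + r) ^ 2 * Real.exp (2 * Real.sqrt 2 * r) * qq u x - yy u x r
    with hF
  have hdF : ∀ r, HasDerivAt F ((c * (2 * (1 + r)) * Real.exp (2 * Real.sqrt 2 * r)
      + c * (1 + r) ^ 2 * (Real.exp (2 * Real.sqrt 2 * r) * (2 * Real.sqrt 2))) * qq u x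
      - (1 - pn u x r)) r := by
    intro r
    have h1 : HasDerivAt (fun r : ℝ => c * (1 + r) ^ 2) (c * (2 * (1 + r))) r := by
      have := (((hasDerivAt_id r).const_add 1).pow 2).const_mul c
      simpa using this
    have h2 : HasDerivAt (fun r : ℝ => Real.exp (2 * Real.sqrt 2 * r))
        (Real.exp (2 * Real.sqrt 2 * r) * (2 * Real.sqrt 2)) r := by
      have := ((hasDerivAt_id r).const_mul (2 * Real.sqrt 2)).exp
      simpa using this
    exact ((h1.mul h2).mul_const (qq u x)).sub (hasDerivAt_yy hu h x r)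
  have hmono : MonotoneOn F (Set.Icc 0 t) := by
    apply monotoneOn_of_deriv_nonneg (convex_Icc _ _)
    · intro r _; exact (hdF r).continuousAt.continuousWithinAt
    · intro r _; exact (hdF r).differentiableAt.differentiableWithinAt
    · intro r hr
      rw [interior_Icc] at hr
      rw [(hdF r).deriv]
      have h1 := one_sub_pn_le hK hu h hx r
      rw [abs_of_pos hr.1] at h1
      have hE := Real.exp_pos (2 * Real.sqrt 2 * r)
      have hr1 : 0 < 1 + r := by linarith [hr.1]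
      have h2 : c * (1 + r) ^ 2 * Real.exp (2 * Real.sqrt 2 * r) * qq u x
          ≤ c * (1 + r) ^ 2 * (Real.exp (2 * Real.sqrt 2 * r) * (2 * Real.sqrt 2)) * qq u x := by
        apply mul_le_mul_of_nonneg_right _ hq
        apply mul_le_mul_of_nonneg_left _ (by positivity)
        nlinarith [r2_one_le]
      have h3 : 0 ≤ c * (2 * (1 + r)) * Real.exp (2 * Real.sqrt 2 * r) * qq u x := by positivity
      have h4 : c * (1 + r) ^ 2 * Real.exp (2 * Real.sqrt 2 * r) * qq u x ≥ 1 - pn u x r := h1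
      nlinarith [h2, h3, h4]
  have h1 := hmono (Set.left_mem_Icc.mpr ht0) (Set.right_mem_Icc.mpr ht0) ht0
  have h2 : 0 ≤ F 0 := by
    simp only [hF, yy_zero]
    have : 0 ≤ c * (1 + 0) ^ 2 * Real.exp (2 * Real.sqrt 2 * 0) * qq u x := by positivity
    linarith
  have h3 : 0 ≤ F t := h2.trans h1
  simp only [hF] at h3
  linarith

/-! ### the ODE for `z = g0(φ(x)+t) - u(x~)` -/

noncomputable def zz (u : R3 → ℝ) (x : R3) (t : ℝ) : ℝ := g0 (phi u x + t) - u (xt u x t)

lemma zz_zero (h : ∀ x, |u x| < 1) (x : R3) : zz u x 0 = 0 := by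
  unfold zz; rw [xt_zero, add_zero, g0_phi h, sub_self]

lemma zz_nonneg (hu : Sol u) (h : ∀ x, |u x| < 1) (x : R3) (ht : 0 ≤ t) : 0 ≤ zz u x t := by
  have h1 := yy_nonneg hu h x ht
  unfold zz
  rw [← g0_phi h (xt u x t), sub_nonneg]
  apply g0_mono
  unfold yy at h1; linarith

lemma hasDerivAt_zz (hu : Sol u) (h : ∀ x, |u x| < 1) (x : R3) (t : ℝ) :
    HasDerivAt (zz u x) (-((g0 (phi u x + t) + u (xt u x t)) / Real.sqrt 2) * zz u x t
      + 2 * Vd (-nn u x) u (xt u x t)) t := by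
  have h1 : HasDerivAt (fun t => g0 (phi u x + t)) (g1 (phi u x + t)) t := by
    have := (hasDerivAt_g0 (phi u x + t)).comp t ((hasDerivAt_id t).const_add (phi u x))
    rw [mul_one] at this
    exact this
  have h2 : HasDerivAt (fun t => u (xt u x t)) (g1 (phi u (xt u x t)) * pn u x t) t := by
    have h3 := (hasDerivAt_g0 (phi u (xt u x t))).comp t (hasDerivAt_phi_xt hu h x t)
    have e : (g0 ∘ fun t => phi u (xt u x t)) = fun t => u (xt u x t) := by
      funext r; exact g0_phi h _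
    rw [e] at h3
    exact h3
  have h3 := h1.sub h2
  have e : g1 (phi u x + t) - g1 (phi u (xt u x t)) * pn u x t
      = -((g0 (phi u x + t) + u (xt u x t)) / Real.sqrt 2) * zz u x t
      + 2 * Vd (-nn u x) u (xt u x t) := by
    rw [Vd_neg_nn hu h, g1_phi h]
    unfold zz g1 ff
    have := r2_ne
    field_simp
    ring
  rw [e] at h3
  exact h3

lemma coef_le (hu : Sol u) (h : ∀ x, |u x| < 1) (hx : |phi u x| ≤ s3) (ht : 0 ≤ t) :
    -((g0 (phi u x + t) + u (xt u x t)) / Real.sqrt 2)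
      ≤ 4 * s3 * Real.exp (Real.sqrt 2 * s3) * Real.exp (-(Real.sqrt 2 * t)) := by
  have hs3 : 0 ≤ s3 := (abs_nonneg _).trans hx
  have h1 := phi_xt_le hu h x t
  rw [abs_of_nonneg ht] at h1
  have h2 : g0 (phi u x - t) ≤ u (xt u x t) := by
    rw [← g0_phi h (xt u x t)]
    apply g0_mono
    linarith [(abs_le.mp h1).1]
  have h3 : g0 (phi u x - t) = - g0 (t - phi u x) := by rw [← g0_neg]; congr 1; ring
  set s := phi u x with hs
  have hE := Real.exp_pos (-(Real.sqrt 2 * t))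
  have hE2 := Real.exp_pos (Real.sqrt 2 * s3)
  have hr := r2_pos
  rcases le_or_gt 0 s with h0 | h0
  · have h4 : g0 (t - s) ≤ g0 (s + t) := g0_mono (by linarith)
    have h5 : 0 ≤ (g0 (s + t) + u (xt u x t)) / Real.sqrt 2 := by
      apply div_nonneg _ hr.le; linarith
    have h6 : 0 ≤ 4 * s3 * Real.exp (Real.sqrt 2 * s3) * Real.exp (-(Real.sqrt 2 * t)) := by
      positivity
    linarith
  · -- mean value theorem on `[s + t, t - s]`
    have hsl := (abs_le.mp hx).1
    have h4 := (convex_Icc (s + t) (t - s)).norm_image_sub_le_of_norm_hasDerivWithin_le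
      (f := g0) (f' := g1) (C := 4 / Real.sqrt 2 * (Real.exp (Real.sqrt 2 * s3)
        * Real.exp (-(Real.sqrt 2 * t)))) (x := s + t) (y := t - s)
      (fun r _ => (hasDerivAt_g0 r).hasDerivWithinAt)
      (fun r hr' => by
        rw [Real.norm_eq_abs, abs_of_pos (g1_pos r)]
        refine (g1_le r).trans ?_
        apply mul_le_mul_of_nonneg_left _ (by positivity)
        rw [← Real.exp_add]
        apply Real.exp_le_exp.mpr
        have h5 : t - s3 ≤ |r| := by
          have := le_abs_self r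
          linarith [hr'.1]
        have := mul_le_mul_of_nonneg_left h5 hr.le
        linarith)
      (Set.left_mem_Icc.mpr (by linarith)) (Set.right_mem_Icc.mpr (by linarith))
    rw [Real.norm_eq_abs, Real.norm_eq_abs] at h4
    have h5 := (le_abs_self _).trans h4
    have h6 : |t - s - (s + t)| ≤ 2 * s3 := by
      rw [show t - s - (s + t) = -2 * s by ring, abs_mul, abs_of_neg (show (-2:ℝ) < 0 by norm_num)]
      linarith
    set P := Real.exp (Real.sqrt 2 * s3) * Real.exp (-(Real.sqrt 2 * t)) with hP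
    have hP0 : 0 < P := by positivity
    have h7 : g0 (t - s) - g0 (s + t) ≤ 4 / Real.sqrt 2 * P * (2 * s3) :=
      h5.trans (mul_le_mul_of_nonneg_left h6 (by positivity))
    have h8 : -((g0 (s + t) + u (xt u x t)) / Real.sqrt 2)
        ≤ (g0 (t - s) - g0 (s + t)) / Real.sqrt 2 := by
      rw [← neg_div]
      apply div_le_div_of_nonneg_right _ hr.le
      linarith
    refine h8.trans ?_
    rw [div_le_iff₀ hr]
    refine h7.trans (le_of_eq ?_)
    have : 4 * s3 * Real.exp (Real.sqrt 2 * s3) * Real.exp (-(Real.sqrt 2 * t)) * Real.sqrt 2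
        = 4 * s3 * P * Real.sqrt 2 := by rw [hP]; ring
    rw [this]
    have e : 4 / Real.sqrt 2 = 2 * Real.sqrt 2 := by
      rw [div_eq_iff r2_ne]; nlinarith [r2_sq]
    rw [e]; ring

/-- upper bound for `z`. -/
lemma zz_le (hK : Yuk K) (hu : Sol u) (h : ∀ x, |u x| < 1) (hx : |phi u x| ≤ s3) (ht : 0 ≤ t) :
    zz u x t ≤ K * Real.exp (4 * s3 * Real.exp (Real.sqrt 2 * s3) / Real.sqrt 2)
      * (1 + t) ^ 2 * Real.exp (Real.sqrt 2 * t) * qq u x := by
  have hs3 : 0 ≤ s3 := (abs_nonneg _).trans hx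
  have hr := r2_pos
  set a0 := 4 * s3 * Real.exp (Real.sqrt 2 * s3) with ha0
  have ha : 0 ≤ a0 := by have := Real.exp_pos (Real.sqrt 2 * s3); positivity
  set θ : ℝ → ℝ := fun r => Real.exp (a0 / Real.sqrt 2 * Real.exp (-(Real.sqrt 2 * r))) with hθ
  have hdθ : ∀ r, HasDerivAt θ (θ r * (-(a0 * Real.exp (-(Real.sqrt 2 * r))))) r := by
    intro r
    have h1 : HasDerivAt (fun r : ℝ => Real.exp (-(Real.sqrt 2 * r)))
        (Real.exp (-(Real.sqrt 2 * r)) * (-(Real.sqrt 2))) r := by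
      have := (((hasDerivAt_id r).const_mul (Real.sqrt 2)).neg).exp
      simpa using this
    have h2 := (h1.const_mul (a0 / Real.sqrt 2)).exp
    convert h2 using 1
    simp only [hθ]
    have := r2_ne
    field_simp
  have hθ1 : ∀ r, 0 ≤ r → 1 ≤ θ r ∧ θ r ≤ Real.exp (a0 / Real.sqrt 2) := by
    intro r hr0
    constructor
    · simp only [hθ]
      apply Real.one_le_exp
      have := Real.exp_pos (-(Real.sqrt 2 * r)); positivity
    · simp only [hθ]
      apply Real.exp_le_exp.mpr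
      have h3 : Real.exp (-(Real.sqrt 2 * r)) ≤ 1 := by
        rw [Real.exp_le_one_iff]; have := mul_nonneg hr.le hr0; linarith
      calc a0 / Real.sqrt 2 * Real.exp (-(Real.sqrt 2 * r)) ≤ a0 / Real.sqrt 2 * 1 :=
            mul_le_mul_of_nonneg_left h3 (by positivity)
        _ = a0 / Real.sqrt 2 := mul_one _
  set M := K * Real.exp (a0 / Real.sqrt 2) with hM
  have hM0 : 0 ≤ M := by have := hK.1; positivity
  have hq := qq_nonneg hu h x
  set F : ℝ → ℝ := fun r => M * (1 + r) ^ 2 * Real.exp (Real.sqrt 2 * r) * qq u x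
    - zz u x r * θ r with hF
  have hdF : ∀ r, HasDerivAt F ((M * (2 * (1 + r)) * Real.exp (Real.sqrt 2 * r)
      + M * (1 + r) ^ 2 * (Real.exp (Real.sqrt 2 * r) * Real.sqrt 2)) * qq u x
      - ((-((g0 (phi u x + r) + u (xt u x r)) / Real.sqrt 2) * zz u x r
        + 2 * Vd (-nn u x) u (xt u x r)) * θ r
        + zz u x r * (θ r * (-(a0 * Real.exp (-(Real.sqrt 2 * r))))))) r := by
    intro r
    have h1 : HasDerivAt (fun r : ℝ => M * (1 + r) ^ 2) (M * (2 * (1 + r))) r := by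
      have := (((hasDerivAt_id r).const_add 1).pow 2).const_mul M
      simpa using this
    have h2 : HasDerivAt (fun r : ℝ => Real.exp (Real.sqrt 2 * r))
        (Real.exp (Real.sqrt 2 * r) * Real.sqrt 2) r := by
      have := ((hasDerivAt_id r).const_mul (Real.sqrt 2)).exp
      simpa using this
    exact ((h1.mul h2).mul_const (qq u x)).sub ((hasDerivAt_zz hu h x r).mul (hdθ r))
  have hmono : MonotoneOn F (Set.Icc 0 t) := by
    apply monotoneOn_of_deriv_nonneg (convex_Icc _ _)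
    · intro r _; exact (hdF r).continuousAt.continuousWithinAt
    · intro r _; exact (hdF r).differentiableAt.differentiableWithinAt
    · intro r hr'
      rw [interior_Icc] at hr'
      rw [(hdF r).deriv]
      have hr0 : 0 ≤ r := hr'.1.le
      have hz := zz_nonneg hu h x hr0
      have hc := coef_le hu h hx hr0
      rw [← ha0] at hc
      have hV := Vd_ray_le hK hu h x r
      rw [abs_of_nonneg hr0] at hV
      have hV0 := Vd_nonneg hu (neg_nn_sq u x) (xt u x r)
      obtain ⟨t1, t2⟩ := hθ1 r hr0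
      have hθ0 : 0 ≤ θ r := by linarith
      have hE := Real.exp_pos (Real.sqrt 2 * r)
      set c := -((g0 (phi u x + r) + u (xt u x r)) / Real.sqrt 2) with hcdef
      set e := Real.exp (-(Real.sqrt 2 * r)) with he
      set V := Vd (-nn u x) u (xt u x r) with hVdef
      have k1 : 0 ≤ (a0 * e - c) * zz u x r * θ r :=
        mul_nonneg (mul_nonneg (by linarith) hz) hθ0
      have k2 : 2 * V * θ r ≤ M * (1 + r) ^ 2 * Real.exp (Real.sqrt 2 * r) * qq u x := by
        calc 2 * V * θ r ≤ 2 * V * Real.exp (a0 / Real.sqrt 2) :=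
              mul_le_mul_of_nonneg_left t2 (by positivity)
          _ ≤ 2 * (K * (1 + r) ^ 2 * Real.exp (Real.sqrt 2 * r) * (qq u x / 2))
              * Real.exp (a0 / Real.sqrt 2) := by
              apply mul_le_mul_of_nonneg_right _ (Real.exp_pos _).le
              linarith
          _ = _ := by rw [hM]; ring
      have k3 : M * (1 + r) ^ 2 * Real.exp (Real.sqrt 2 * r) * qq u x
          ≤ M * (1 + r) ^ 2 * (Real.exp (Real.sqrt 2 * r) * Real.sqrt 2) * qq u x := by
        apply mul_le_mul_of_nonneg_right _ hq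
        apply mul_le_mul_of_nonneg_left _ (by positivity)
        nlinarith [r2_one_le]
      have k4 : 0 ≤ M * (2 * (1 + r)) * Real.exp (Real.sqrt 2 * r) * qq u x := by
        have : 0 < 1 + r := by linarith
        positivity
      nlinarith [k1, k2, k3, k4]
  have h1 := hmono (Set.left_mem_Icc.mpr ht) (Set.right_mem_Icc.mpr ht) ht
  have h2 : 0 ≤ F 0 := by
    simp only [hF, zz_zero h, zero_mul, sub_zero]
    positivity
  have h3 : 0 ≤ F t := h2.trans h1
  simp only [hF] at h3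
  have h4 : zz u x t ≤ zz u x t * θ t := by
    have := mul_le_mul_of_nonneg_left (hθ1 t ht).1 (zz_nonneg hu h x ht)
    linarith
  linarith

/-- **(R3)** for `t ≥ 0`. -/
lemma ff_sq_sub_pos (hK : Yuk K) (hu : Sol u) (h : ∀ x, |u x| < 1) (hx : |phi u x| ≤ s3)
    (ht : 0 ≤ t) (hqt : qq u x * Real.exp (2 * Real.sqrt 2 * t) ≤ 1) :
    |ff u (xt u x t) ^ 2 - g1 (phi u x + t) ^ 2|
      ≤ (8 * (K * Real.exp (4 * s3 * Real.exp (Real.sqrt 2 * s3) / Real.sqrt 2))
            * Real.exp (Real.sqrt 2 * s3)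
          + 2 * (K * Real.exp (4 * s3 * Real.exp (Real.sqrt 2 * s3) / Real.sqrt 2)) ^ 2)
        * (1 + t) ^ 4 * qq u x := by
  have hs3 : 0 ≤ s3 := (abs_nonneg _).trans hx
  have hr := r2_pos
  set M := K * Real.exp (4 * s3 * Real.exp (Real.sqrt 2 * s3) / Real.sqrt 2) with hM
  have hM0 : 0 ≤ M := by have := hK.1; positivity
  have hz := zz_le hK hu h hx ht
  rw [← hM] at hz
  have hz0 := zz_nonneg hu h x ht
  have hq := qq_nonneg hu h x
  set g := g0 (phi u x + t) with hg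
  set v := u (xt u x t) with hv
  have hzdef : zz u x t = g - v := rfl
  have hgv : |g + v| ≤ 2 := by
    have h1 := g0_abs_lt (phi u x + t)
    have h2 := h (xt u x t)
    calc |g + v| ≤ |g| + |v| := abs_add_le _ _
      _ ≤ 2 := by linarith
  have e1 : ff u (xt u x t) - g1 (phi u x + t) = zz u x t * (g + v) / Real.sqrt 2 := by
    rw [hzdef]; unfold ff g1; ring
  have h1 : |ff u (xt u x t) - g1 (phi u x + t)| ≤ Real.sqrt 2 * zz u x t := by
    rw [e1, abs_div, abs_mul, abs_of_nonneg hz0, abs_of_pos hr, div_le_iff₀ hr]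
    have : Real.sqrt 2 * zz u x t * Real.sqrt 2 = zz u x t * 2 := by
      nlinarith [r2_sq]
    rw [this]
    exact mul_le_mul_of_nonneg_left hgv hz0
  have hf0 := ff_pos h (xt u x t)
  have hg0 := g1_pos (phi u x + t)
  have h2 : ff u (xt u x t) + g1 (phi u x + t)
      ≤ 2 * g1 (phi u x + t) + Real.sqrt 2 * zz u x t := by
    have := (abs_le.mp h1).2; linarith
  have h3 : |ff u (xt u x t) ^ 2 - g1 (phi u x + t) ^ 2|
      ≤ Real.sqrt 2 * zz u x t * (2 * g1 (phi u x + t) + Real.sqrt 2 * zz u x t) := by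
    have e2 : ff u (xt u x t) ^ 2 - g1 (phi u x + t) ^ 2
        = (ff u (xt u x t) - g1 (phi u x + t)) * (ff u (xt u x t) + g1 (phi u x + t)) := by ring
    rw [e2, abs_mul, abs_of_pos (by linarith : 0 < ff u (xt u x t) + g1 (phi u x + t))]
    exact mul_le_mul h1 h2 (by linarith) (by positivity)
  refine h3.trans ?_
  -- bound of `g1`
  have h4 : g1 (phi u x + t) ≤ 4 / Real.sqrt 2 * (Real.exp (Real.sqrt 2 * s3)
      * Real.exp (-(Real.sqrt 2 * t))) := by
    refine (g1_le _).trans ?_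
    apply mul_le_mul_of_nonneg_left _ (by positivity)
    rw [← Real.exp_add]
    apply Real.exp_le_exp.mpr
    have h5 : t - s3 ≤ |phi u x + t| := by
      have := le_abs_self (phi u x + t)
      linarith [(abs_le.mp hx).1]
    have := mul_le_mul_of_nonneg_left h5 hr.le
    linarith
  set Et := Real.exp (Real.sqrt 2 * t) with hEt
  have hEt0 : 0 < Et := Real.exp_pos _
  have hEm : Real.exp (-(Real.sqrt 2 * t)) = Et⁻¹ := by rw [Real.exp_neg]
  rw [hEm] at h4
  have hE2 : Real.exp (2 * Real.sqrt 2 * t) = Et ^ 2 := by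
    rw [hEt, ← Real.exp_nat_mul]; congr 1; push_cast; ring
  rw [hE2] at hqt
  set S := Real.exp (Real.sqrt 2 * s3) with hS
  have hS0 : 0 < S := Real.exp_pos _
  have ht1 : 1 ≤ 1 + t := by linarith
  have ht2 : (1 + t) ^ 2 ≤ (1 + t) ^ 4 := pow_le_pow_right₀ ht1 (by norm_num)
  -- first product
  have k1 : Real.sqrt 2 * zz u x t * (2 * g1 (phi u x + t)) ≤ 8 * M * S * (1 + t) ^ 4 * qq u x := by
    calc Real.sqrt 2 * zz u x t * (2 * g1 (phi u x + t))
        ≤ Real.sqrt 2 * (M * (1 + t) ^ 2 * Et * qq u x) * (2 * (4 / Real.sqrt 2 * (S * Et⁻¹))) := by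
          apply mul_le_mul
          · exact mul_le_mul_of_nonneg_left hz hr.le
          · linarith
          · positivity
          · positivity
      _ = 8 * M * S * (1 + t) ^ 2 * qq u x := by field_simp; ring
      _ ≤ 8 * M * S * (1 + t) ^ 4 * qq u x := by
          apply mul_le_mul_of_nonneg_right _ hq
          exact mul_le_mul_of_nonneg_left ht2 (by positivity)
  have k2 : Real.sqrt 2 * zz u x t * (Real.sqrt 2 * zz u x t) ≤ 2 * M ^ 2 * (1 + t) ^ 4 * qq u x := by
    have e3 : Real.sqrt 2 * zz u x t * (Real.sqrt 2 * zz u x t) = 2 * zz u x t ^ 2 := by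
      nlinarith [r2_sq]
    rw [e3]
    have h6 : zz u x t ^ 2 ≤ (M * (1 + t) ^ 2 * Et * qq u x) ^ 2 := pow_le_pow_left₀ hz0 hz 2
    have h7 : (M * (1 + t) ^ 2 * Et * qq u x) ^ 2
        = M ^ 2 * (1 + t) ^ 4 * qq u x * (qq u x * Et ^ 2) := by ring
    have h8 : M ^ 2 * (1 + t) ^ 4 * qq u x * (qq u x * Et ^ 2)
        ≤ M ^ 2 * (1 + t) ^ 4 * qq u x * 1 := mul_le_mul_of_nonneg_left hqt (by positivity)
    linarith
  calc Real.sqrt 2 * zz u x t * (2 * g1 (phi u x + t) + Real.sqrt 2 * zz u x t)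
      = Real.sqrt 2 * zz u x t * (2 * g1 (phi u x + t))
        + Real.sqrt 2 * zz u x t * (Real.sqrt 2 * zz u x t) := by ring
    _ ≤ 8 * M * S * (1 + t) ^ 4 * qq u x + 2 * M ^ 2 * (1 + t) ^ 4 * qq u x := add_le_add k1 k2
    _ = _ := by ring

/-! ### symmetry `u ↦ -u` -/

lemma phi_neg (u : R3 → ℝ) (x : R3) : phi (fun y => - u y) x = - phi u x := by
  unfold phi; simp only [sub_neg_eq_add]
  rw [show (1:ℝ) + -u x = 1 - u x by ring]; ring

lemma phi_neg' (u : R3 → ℝ) : phi (fun y => - u y) = fun y => - phi u y := by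
  funext y; exact phi_neg u y

lemma gs_phi_neg (u : R3 → ℝ) (x : R3) : gs (phi (fun y => - u y)) x = gs (phi u) x := by
  rw [phi_neg']; unfold gs
  refine Finset.sum_congr rfl fun i _ => ?_
  rw [pd_neg]; ring

lemma rr_neg (u : R3 → ℝ) (x : R3) : rr (fun y => - u y) x = rr u x := by
  unfold rr wn; rw [gs_phi_neg]

lemma qq_neg (u : R3 → ℝ) (x : R3) : qq (fun y => - u y) x = qq u x := by
  unfold qq; rw [gs_phi_neg]

lemma ff_neg (u : R3 → ℝ) (x : R3) : ff (fun y => - u y) x = ff u x := by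
  unfold ff; simp

lemma nn_neg (u : R3 → ℝ) (x : R3) : nn (fun y => - u y) x = - nn u x := by
  funext i
  have h1 : wn (phi (fun y => - u y)) x = wn (phi u) x := by unfold wn; rw [gs_phi_neg]
  simp only [nn, Pi.neg_apply]
  unfold SM.nu
  rw [h1, phi_neg', pd_neg]
  ring

lemma xt_neg (u : R3 → ℝ) (x : R3) (t : ℝ) : xt (fun y => - u y) x t = xt u x (-t) := by
  rw [xt_eq, xt_eq, nn_neg]; simp

lemma pn_neg (u : R3 → ℝ) (x : R3) (t : ℝ) : pn (fun y => - u y) x t = pn u x (-t) := by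
  unfold pn
  rw [xt_neg, nn_neg, phi_neg']
  refine Finset.sum_congr rfl fun i _ => ?_
  rw [pd_neg]; simp

lemma yy_neg (u : R3 → ℝ) (x : R3) (t : ℝ) : yy (fun y => - u y) x t = - yy u x (-t) := by
  unfold yy; rw [xt_neg, phi_neg, phi_neg]; ring

/-! ### the block -/

/-- **LI-RAY** from the Yukawa bound: all facts on the ray through a base point of the slab. -/
theorem ray_of_yuk (hK : Yuk K) (s3 : ℝ) (hs3 : 0 < s3) : ∃ c1 C1 : ℝ, 0 < c1 ∧ 0 < C1 ∧
    ∀ u : R3 → ℝ, Sol u → (∀ x, |u x| < 1) → ∀ x : R3, |phi u x| ≤ s3 →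
      (∀ t, HasDerivAt (fun t => phi u (xt u x t)) (pn u x t) t) ∧
      (∀ t, |pn u x t| ≤ 1) ∧ Monotone (yy u x) ∧ yy u x 0 = 0 ∧
      (∀ t, 1 - pn u x t ≤ C1 * (1 + |t|) ^ 2 * Real.exp (2 * Real.sqrt 2 * |t|) * qq u x) ∧
      (∀ t, |t| ≤ 2 * s3 + 2 → c1 * qq u x * |t| ≤ |yy u x t|) ∧
      (∀ t, |yy u x t| ≤ C1 * (1 + |t|) ^ 2 * Real.exp (2 * Real.sqrt 2 * |t|) * qq u x) ∧
      (∀ t, qq u x * Real.exp (2 * Real.sqrt 2 * |t|) ≤ 1 →
        |ff u (xt u x t) ^ 2 - g1 (phi u x + t) ^ 2| ≤ C1 * (1 + |t|) ^ 4 * qq u x) ∧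
      (∀ t, ∑ i, (pd i (phi u) (xt u x t) - nn u x i) ^ 2 ≤ 2 * (1 - pn u x t)) := by
  set c1 := Real.exp (-(3 * cH 3 2 * (2 * s3 + 2))) * Real.exp (-(Real.sqrt 2 * s3)) / 2 with hc1
  set A := Real.sqrt 2 * K * Real.exp (Real.sqrt 2 * s3) with hA
  set M := K * Real.exp (4 * s3 * Real.exp (Real.sqrt 2 * s3) / Real.sqrt 2) with hM
  set B := 8 * M * Real.exp (Real.sqrt 2 * s3) + 2 * M ^ 2 with hB
  have hK0 := hK.1
  have hr := r2_pos
  have hA0 : 0 ≤ A := by positivity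
  have hM0 : 0 ≤ M := by positivity
  have hB0 : 0 ≤ B := by positivity
  refine ⟨c1, A + B + 1, by positivity, by positivity, ?_⟩
  intro u hu h x hx
  have hq := qq_nonneg hu h x
  have hun : Sol (fun y => - u y) := hu.neg
  have hn : ∀ y, |(fun y => - u y) y| < 1 := fun y => by simpa using h y
  have hxn : |phi (fun y => - u y) x| ≤ s3 := by rw [phi_neg, abs_neg]; exact hx
  have hAle : ∀ t : ℝ, A * (1 + |t|) ^ 2 * Real.exp (2 * Real.sqrt 2 * |t|) * qq u x
      ≤ (A + B + 1) * (1 + |t|) ^ 2 * Real.exp (2 * Real.sqrt 2 * |t|) * qq u x := by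
    intro t
    apply mul_le_mul_of_nonneg_right _ hq
    apply mul_le_mul_of_nonneg_right _ (Real.exp_pos _).le
    apply mul_le_mul_of_nonneg_right _ (by positivity)
    linarith
  refine ⟨fun t => hasDerivAt_phi_xt hu h x t, fun t => pn_abs_le hu h x t, yy_mono hu h x,
    yy_zero u x, fun t => (one_sub_pn_le hK hu h hx t).trans (hAle t), ?_, ?_, ?_,
    fun t => dev_sq_le hu h x t⟩
  · intro t ht
    rcases le_total 0 t with h0 | h0
    · rw [abs_of_nonneg h0] at ht ⊢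
      rw [abs_of_nonneg (yy_nonneg hu h x h0)]
      exact le_yy_pos hu h hx h0 ht
    · rw [abs_of_nonpos h0] at ht ⊢
      have h1 := le_yy_pos hun hn hxn (t := -t) (by linarith) ht
      rw [qq_neg, yy_neg, neg_neg] at h1
      exact h1.trans (neg_le_abs _)
  · intro t
    refine le_trans ?_ (hAle t)
    rcases le_total 0 t with h0 | h0
    · rw [abs_of_nonneg h0, abs_of_nonneg (yy_nonneg hu h x h0)]
      exact yy_le_pos hK hu h hx h0
    · have h1 := yy_le_pos hK hun hn hxn (t := -t) (by linarith)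
      have h2 := yy_nonneg hun hn x (t := -t) (by linarith)
      rw [qq_neg, yy_neg, neg_neg] at h1
      rw [yy_neg, neg_neg] at h2
      rw [abs_of_nonpos h0, abs_of_nonpos (by linarith)]
      exact h1
  · intro t ht
    have hBle : ∀ r : ℝ, B * r ^ 4 * qq u x ≤ (A + B + 1) * r ^ 4 * qq u x := by
      intro r
      apply mul_le_mul_of_nonneg_right _ hq
      apply mul_le_mul_of_nonneg_right _ (by positivity)
      linarith
    refine le_trans ?_ (hBle _)
    rcases le_total 0 t with h0 | h0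
    · rw [abs_of_nonneg h0] at ht ⊢
      exact ff_sq_sub_pos hK hu h hx h0 ht
    · rw [abs_of_nonpos h0] at ht ⊢
      have h1 := ff_sq_sub_pos hK hun hn hxn (t := -t) (by linarith) (by rw [qq_neg]; exact ht)
      rw [qq_neg, ff_neg, xt_neg, neg_neg, phi_neg] at h1
      have e : g1 (-phi u x + -t) = g1 (phi u x + t) := by
        rw [← g1_neg]; congr 1; ring
      rw [e] at h1
      exact h1

end Vale.Agent.P134.H147
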